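import Vale.Agent.P319.SC.H235.Low

/-! P319, block SC: the tripling lemma. -/

namespace Vale.Agent.P319.SC.H235

open Finset Matrix Vale.Agent.P319.SC Vale.Agent.P319.SC.H323

set_option linter.all false

theorem alg {n kT t p q p' q' k P N Z A B E L D : ℝ} (hE : E ^ 2 = D) (hE0 : 0 ≤ E)
    (hL : 1 ≤ L) (hD : 2 ^ 24 * L ^ 32 < D) (hn : 0 < n) (hp : 0 < p) (hq : 0 < q)
    (hp' : 0 < p') (hq' : 0 < q') (hk : 0 < k) (hP : 0 < P) (hkT : 0 < kT) (hpn : p ≤ n)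
    (hqn : q ≤ n) (ht : t = p * k) (h1 : n ≤ L * P) (h2 : n ≤ L * p') (h3 : n ≤ L * q')
    (h4 : n ≤ L * k) (h5 : n ≤ L * kT) (h6 : p' ≤ p)
    (e1 : E * (kT * (t * (3 * B - A) ^ 2)) ≤ 12 * n ^ 5) (e2 : t * A = P * N)
    (e3 : t * B = P * Z) (e4 : t * (p' * q') ≤ p * q * (2 * N)) (hA : 0 ≤ A) :
    k * (p' * q') ≤ 8 * q * Z := by
  have hL0 : 0 < L := by linarith
  have ht0 : 0 < t := by rw [ht]; positivity
  have hnp : n ≤ L * p := h2.trans (mul_le_mul_of_nonneg_left h6 hL0.le)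
  -- `n ≤ 2 L³ A`
  have a1 : t * (P * (p' * q')) ≤ t * (2 * (p * q) * A) := by
    calc t * (P * (p' * q')) = P * (t * (p' * q')) := by ring
      _ ≤ P * (p * q * (2 * N)) := mul_le_mul_of_nonneg_left e4 hP.le
      _ = 2 * (p * q) * (P * N) := by ring
      _ = t * (2 * (p * q) * A) := by rw [← e2]; ring
  have a2 : P * (p' * q') ≤ 2 * (p * q) * A := le_of_mul_le_mul_left a1 ht0
  have a3 : p * q ≤ n * n := mul_le_mul hpn hqn hq.le hn.le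
  have a4 : n * (n * n) ≤ (L * P) * ((L * p') * (L * q')) :=
    mul_le_mul h1 (mul_le_mul h2 h3 hn.le (by positivity)) (by positivity) (by positivity)
  have a5 : (n * n) * n ≤ (n * n) * (2 * L ^ 3 * A) := by
    calc (n * n) * n = n * (n * n) := by ring
      _ ≤ (L * P) * ((L * p') * (L * q')) := a4
      _ = L ^ 3 * (P * (p' * q')) := by ring
      _ ≤ L ^ 3 * (2 * (p * q) * A) := mul_le_mul_of_nonneg_left a2 (by positivity)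
      _ = (p * q) * (2 * L ^ 3 * A) := by ring
      _ ≤ (n * n) * (2 * L ^ 3 * A) := mul_le_mul_of_nonneg_right a3 (by positivity)
  have a6 : n ≤ 2 * L ^ 3 * A := le_of_mul_le_mul_left a5 (by positivity)
  -- the bound for `φ`
  set φ : ℝ := 3 * B - A with hφ
  have b1 : n * n ≤ L ^ 2 * t := by
    calc n * n ≤ (L * p) * (L * k) := mul_le_mul hnp h4 hn.le (by positivity)
      _ = L ^ 2 * t := by rw [ht]; ring
  have b2 : (n ^ 3) * (E * φ ^ 2) ≤ (n ^ 3) * (12 * L ^ 3 * n ^ 2) := by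
    calc (n ^ 3) * (E * φ ^ 2) = (n * (n * n)) * (E * φ ^ 2) := by ring
      _ ≤ ((L * kT) * (L ^ 2 * t)) * (E * φ ^ 2) := by
          refine mul_le_mul_of_nonneg_right ?_ (by positivity)
          exact mul_le_mul h5 b1 (by positivity) (by positivity)
      _ = L ^ 3 * (E * (kT * (t * φ ^ 2))) := by ring
      _ ≤ L ^ 3 * (12 * n ^ 5) := mul_le_mul_of_nonneg_left e1 (by positivity)
      _ = (n ^ 3) * (12 * L ^ 3 * n ^ 2) := by ring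
  have b3 : E * φ ^ 2 ≤ 12 * L ^ 3 * n ^ 2 := le_of_mul_le_mul_left b2 (by positivity)
  have b4 : n ^ 2 ≤ (2 * L ^ 3 * A) ^ 2 := pow_le_pow_left₀ hn.le a6 2
  have b5 : E * φ ^ 2 ≤ 48 * L ^ 9 * A ^ 2 := by
    calc E * φ ^ 2 ≤ 12 * L ^ 3 * n ^ 2 := b3
      _ ≤ 12 * L ^ 3 * (2 * L ^ 3 * A) ^ 2 := mul_le_mul_of_nonneg_left b4 (by positivity)
      _ = 48 * L ^ 9 * A ^ 2 := by ring
  have b6 : 768 * L ^ 9 ≤ E := by
    have c1 : (2 ^ 12 * L ^ 16) ^ 2 < E ^ 2 := by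
      rw [hE]
      calc (2 ^ 12 * L ^ 16) ^ 2 = 2 ^ 24 * L ^ 32 := by ring
        _ < D := hD
    have c2 : 2 ^ 12 * L ^ 16 < E := lt_of_pow_lt_pow_left₀ 2 hE0 c1
    have c3 : L ^ 9 ≤ L ^ 16 := pow_le_pow_right₀ hL (by norm_num)
    have c4 : 0 < L ^ 9 := by positivity
    linarith
  have b7 : L ^ 9 * (768 * φ ^ 2) ≤ L ^ 9 * (48 * A ^ 2) := by
    calc L ^ 9 * (768 * φ ^ 2) = (768 * L ^ 9) * φ ^ 2 := by ring
      _ ≤ E * φ ^ 2 := mul_le_mul_of_nonneg_right b6 (sq_nonneg _)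
      _ ≤ 48 * L ^ 9 * A ^ 2 := b5
      _ = L ^ 9 * (48 * A ^ 2) := by ring
  have b8 : 768 * φ ^ 2 ≤ 48 * A ^ 2 := le_of_mul_le_mul_left b7 (by positivity)
  have b9 : |φ| ≤ A / 4 := by
    refine abs_le_of_sq_le_sq ?_ (by positivity)
    have : (A / 4) ^ 2 = A ^ 2 / 16 := by ring
    rw [this]
    linarith
  have b10 := (abs_le.1 b9).1
  have b11 : A ≤ 4 * B := by linarith
  have d1 : P * N ≤ P * (4 * Z) := by
    calc P * N = t * A := e2.symm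
      _ ≤ t * (4 * B) := mul_le_mul_of_nonneg_left b11 ht0.le
      _ = 4 * (t * B) := by ring
      _ = P * (4 * Z) := by rw [e3]; ring
  have d2 : N ≤ 4 * Z := le_of_mul_le_mul_left d1 hP
  have d3 : p * (k * (p' * q')) ≤ p * (8 * q * Z) := by
    calc p * (k * (p' * q')) = t * (p' * q') := by rw [ht]; ring
      _ ≤ p * q * (2 * N) := e4
      _ ≤ p * q * (2 * (4 * Z)) := by
          refine mul_le_mul_of_nonneg_left ?_ (by positivity)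
          linarith
      _ = p * (8 * q * Z) := by ring
  exact le_of_mul_le_mul_left d3 hp

theorem alg2 {n p q p' q' k L D : ℝ} (hL : 1 ≤ L) (hD : 2 ^ 24 * L ^ 32 < D) (hn : 0 < n)
    (hp : 0 < p) (hq : 0 < q) (hp' : 0 < p') (hq' : 0 < q') (hk : 0 < k) (hpn : p ≤ n)
    (hqn : q ≤ n) (h2 : n ≤ L * p') (h3 : n ≤ L * q') (h4 : n ≤ L * k) (h6 : p' ≤ p) :
    4 * (p * q) ^ 2 ≤ D * (p * k * (p' * q')) := by
  have hL0 : 0 < L := by linarith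
  have hnp : n ≤ L * p := h2.trans (mul_le_mul_of_nonneg_left h6 hL0.le)
  have a3 : p * q ≤ n * n := mul_le_mul hpn hqn hq.le hn.le
  have a4 : (p * q) ^ 2 ≤ (n * n) ^ 2 := pow_le_pow_left₀ (by positivity) a3 2
  have a5 : (n * n) * (n * n) ≤ ((L * p) * (L * k)) * ((L * p') * (L * q')) :=
    mul_le_mul (mul_le_mul hnp h4 hn.le (by positivity)) (mul_le_mul h2 h3 hn.le (by positivity))
      (by positivity) (by positivity)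
  have a6 : L ^ 4 ≤ L ^ 32 := pow_le_pow_right₀ hL (by norm_num)
  have a7 : 4 * L ^ 4 ≤ D := by
    have : 0 < L ^ 4 := by positivity
    linarith
  calc 4 * (p * q) ^ 2 ≤ 4 * (n * n) ^ 2 := by linarith
    _ = 4 * ((n * n) * (n * n)) := by ring
    _ ≤ 4 * (((L * p) * (L * k)) * ((L * p') * (L * q'))) := by linarith
    _ = (4 * L ^ 4) * (p * k * (p' * q')) := by ring
    _ ≤ D * (p * k * (p' * q')) := mul_le_mul_of_nonneg_right a7 (by positivity)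

variable {V ι : Type} [Fintype V] [DecidableEq V] [DecidableEq ι] {m : ℕ}

/-- sums over the third point -/
theorem sum_third (𝒟 : Cfg V ι m) (hm : 3 ≤ m) (F : V → V → V → ℝ)
    (hF : ∀ v x y v' x' y', 𝒟.c3 v x y = 𝒟.c3 v' x' y' → F v x y = F v' x' y') {x y x₂ y₂ : V}
    (h : 𝒟.c2 x y = 𝒟.c2 x₂ y₂) : ∑ v, F v x y = ∑ v, F v x₂ y₂ := by
  obtain ⟨e, he⟩ := 𝒟.ext2 hm h
  rw [← Equiv.sum_comp e fun v => F v x₂ y₂]
  exact Finset.sum_congr rfl fun v _ => hF _ _ _ _ _ _ (𝒟.c3_rot hm (𝒟.c3_rot hm (he v)))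

theorem sum_ind_pairs (𝒟 : Cfg V ι m) (hm : 2 ≤ m) (x₂ y₂ : V) :
    ∑ x, ∑ y, 𝒟.ind ℝ (𝒟.c2 x₂ y₂) x y =
      ((𝒟.cls (𝒟.c1 x₂)).card : ℝ) * 𝒟.val x₂ (𝒟.c2 x₂ y₂) := by
  rw [← Nat.cast_mul, ← 𝒟.card_pairs hm, Finset.card_filter, Nat.cast_sum,
    ← Finset.univ_product_univ, Finset.sum_product]
  refine Finset.sum_congr rfl fun x _ => Finset.sum_congr rfl fun y _ => ?_
  rw [𝒟.ind_apply]
  split_ifs <;> simp

/-- the product of the three indicators -/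
noncomputable def F1 (𝒟 : Cfg V ι m) (α β τ : ι) (v x y : V) : ℝ :=
  𝒟.ind ℝ α v x * 𝒟.ind ℝ β v y * 𝒟.ind ℝ τ x y

theorem F1_inv (𝒟 : Cfg V ι m) (hm : 3 ≤ m) (α β τ : ι) (v x y v' x' y' : V)
    (h : 𝒟.c3 v x y = 𝒟.c3 v' x' y') : F1 𝒟 α β τ v x y = F1 𝒟 α β τ v' x' y' := by
  have h1 := 𝒟.c3_sub hm h
  simp only [F1, 𝒟.ind_apply]
  rw [h1.1, h1.2.1, h1.2.2]

theorem F1_ne (𝒟 : Cfg V ι m) {α β τ : ι} {v x y : V} (h : F1 𝒟 α β τ v x y ≠ 0) :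
    𝒟.c2 v x = α ∧ 𝒟.c2 v y = β ∧ 𝒟.c2 x y = τ := by
  simp only [F1, 𝒟.ind_apply] at h
  refine ⟨?_, ?_, ?_⟩ <;> (by_contra h1; exact h (by simp [h1]))

theorem F1_eq (𝒟 : Cfg V ι m) (α β τ : ι) (v x y : V) : F1 𝒟 α β τ v x y =
    if 𝒟.c2 v x = α ∧ 𝒟.c2 v y = β ∧ 𝒟.c2 x y = τ then 1 else 0 := by
  simp only [F1, 𝒟.ind_apply]
  by_cases h1 : 𝒟.c2 v x = α <;> by_cases h2 : 𝒟.c2 v y = β <;> by_cases h3 : 𝒟.c2 x y = τ <;>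
    simp [h1, h2, h3]

/-- the lower bound of the sum of `Φ ^ 2` -/
theorem phi_low (𝒟 : Cfg V ι m) (hm : 3 ≤ m) {X : Finset V} {x₂ y₂ : V}
    (G : V → V → V → ℝ)
    (hG : ∀ v x y v' x' y', 𝒟.c3 v x y = 𝒟.c3 v' x' y' → G v x y = G v' x' y')
    (hGX : ∀ v x y, G v x y ≠ 0 → v ∈ X)
    (hX : ∀ x y, 𝒟.c2 x y = 𝒟.c2 x₂ y₂ → x ∈ X ∧ y ∈ X) :
    ((𝒟.cls (𝒟.c1 x₂)).card * (𝒟.val x₂ (𝒟.c2 x₂ y₂) : ℝ)) * (∑ v, G v x₂ y₂) ^ 2 ≤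
      ∑ x ∈ X, ∑ y ∈ X, (∑ v ∈ X, G v x y) ^ 2 := by
  have h0 : ∀ x y, ∑ v ∈ X, G v x y = ∑ v, G v x y := by
    intro x y
    refine Finset.sum_subset (Finset.subset_univ _) fun v _ hv => ?_
    by_contra h
    exact hv (hGX v x y h)
  simp only [h0]
  rw [← sum_ind_pairs 𝒟 (by omega), Finset.sum_mul]
  rw [← Finset.sum_subset (Finset.subset_univ X)]
  · refine Finset.sum_le_sum fun x hx => ?_
    rw [Finset.sum_mul, ← Finset.sum_subset (Finset.subset_univ X)]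
    · refine Finset.sum_le_sum fun y _ => ?_
      rw [𝒟.ind_apply]
      split_ifs with h
      · rw [one_mul, sum_third 𝒟 hm G hG h]
      · rw [zero_mul]; exact sq_nonneg _
    · intro y _ hy
      rw [𝒟.ind_apply, if_neg, zero_mul]
      exact fun h => hy (hX x y h).2
  · intro x _ hx
    rw [Finset.sum_mul]
    refine Finset.sum_eq_zero fun y _ => ?_
    rw [𝒟.ind_apply, if_neg, zero_mul]
    exact fun h => hx (hX x y h).1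

theorem triple : TripleStmt := by
  intro V ι _ _ _ m k 𝒞 𝒟 ρ₀ R T lab D L hm hk hBC hBC2 hBD hr2 hr3 hR hT hlab hG1 hG2 hvR hvT
    v₁ x₁ y₁ x₂ y₂ hv₁ hvx hyv hxy hx hy hLπ hLα hLβ hLτ hDL ε
  set α := 𝒟.c2 v₁ x₁ with hα
  set β := 𝒟.c2 v₁ y₁ with hβ
  set τ := 𝒟.c2 x₂ y₂ with hτ
  set X := 𝒞.cls ρ₀ with hX
  have hm3 : 3 ≤ m := by omega
  have hm2' : 2 ≤ m + 2 := by omega
  have hm3' : 3 ≤ m + 2 := by omega
  -- the points are in `X`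
  have hx₁X : 𝒞.c1 x₁ = ρ₀ := by
    obtain ⟨a, b, h1, h2, h3⟩ := (𝒞.mem_rels _ _ _).1 hR
    exact (𝒞.c1_of_c2 hm2' (hvx.trans h3.symm)).2.trans h2
  have hy₁X : 𝒞.c1 y₁ = ρ₀ := by
    obtain ⟨a, b, h1, h2, h3⟩ := (𝒞.mem_rels _ _ _).1 hR
    exact (𝒞.c1_of_c2 hm2' (hyv.trans h3.symm)).1.trans h1
  have hr1 : ∀ a a', 𝒟.c1 a = 𝒟.c1 a' → 𝒞.c1 a = 𝒞.c1 a' := by
    intro a a' h
    exact (𝒞.c1_of_c2 hm2' (hr2 _ _ _ _ (𝒟.c2_diag (by omega) h))).1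
  have hclsX : ∀ z, 𝒞.c1 z = ρ₀ → 𝒟.cls (𝒟.c1 z) ⊆ X := by
    intro z hz a ha
    rw [𝒟.mem_cls] at ha
    exact (𝒞.mem_cls _ _).2 ((hr1 _ _ ha).trans hz)
  have hRX : ∀ x y, 𝒞.c2 x y = R → x ∈ X ∧ y ∈ X := by
    intro x y h
    obtain ⟨a, b, h1, h2, h3⟩ := (𝒞.mem_rels _ _ _).1 hR
    have h4 := 𝒞.c1_of_c2 hm2' (h.trans h3.symm)
    exact ⟨(𝒞.mem_cls _ _).2 (h4.1.trans h1), (𝒞.mem_cls _ _).2 (h4.2.trans h2)⟩
  -- the real numbers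
  have hE0 : 0 ≤ Real.sqrt D := Real.sqrt_nonneg _
  have hE2 : Real.sqrt D ^ 2 = D := Real.sq_sqrt (Nat.cast_nonneg _)
  have hXpos : 0 < X.card := card_pos.2 ⟨v₁, (𝒞.mem_cls _ _).2 hv₁⟩
  have hLpos : 1 ≤ L := by
    rcases Nat.eq_zero_or_pos L with h | h
    · rw [h, zero_mul] at hLπ; omega
    · exact h
  have hn : (0 : ℝ) < (X.card : ℝ) := by exact_mod_cast hXpos
  have hL1 : (1 : ℝ) ≤ L := by exact_mod_cast hLpos
  have hDL' : (2 : ℝ) ^ 24 * (L : ℝ) ^ 32 < D := by exact_mod_cast hDL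
  have hp0 : (0 : ℝ) < (𝒟.cls (𝒟.c1 x₁)).card := by exact_mod_cast 𝒟.cls_pos x₁
  have hq0 : (0 : ℝ) < (𝒟.cls (𝒟.c1 y₁)).card := by exact_mod_cast 𝒟.cls_pos y₁
  have hP0 : (0 : ℝ) < (𝒟.cls (𝒟.c1 v₁)).card := by exact_mod_cast 𝒟.cls_pos v₁
  have hp'0 : (0 : ℝ) < 𝒟.val v₁ α := by exact_mod_cast 𝒟.val_pos v₁ x₁
  have hq'0 : (0 : ℝ) < 𝒟.val v₁ β := by exact_mod_cast 𝒟.val_pos v₁ y₁
  have hk0 : (0 : ℝ) < 𝒟.val x₂ τ := by exact_mod_cast 𝒟.val_pos x₂ y₂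
  have hpn : ((𝒟.cls (𝒟.c1 x₁)).card : ℝ) ≤ X.card := by
    exact_mod_cast card_le_card (hclsX x₁ hx₁X)
  have hqn : ((𝒟.cls (𝒟.c1 y₁)).card : ℝ) ≤ X.card := by
    exact_mod_cast card_le_card (hclsX y₁ hy₁X)
  have hkT0 : (0 : ℝ) < 𝒞.val v₁ T := by
    have h1 := hvT v₁ hv₁
    have : 0 < 𝒞.val v₁ T := by
      rcases Nat.eq_zero_or_pos (𝒞.val v₁ T) with h | h
      · rw [h, mul_zero] at h1; omega
      · exact h
    exact_mod_cast this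
  have h1 : (X.card : ℝ) ≤ L * (𝒟.cls (𝒟.c1 v₁)).card := by exact_mod_cast hLπ
  have h2 : (X.card : ℝ) ≤ L * 𝒟.val v₁ α := by exact_mod_cast hLα
  have h3 : (X.card : ℝ) ≤ L * 𝒟.val v₁ β := by exact_mod_cast hLβ
  have h4 : (X.card : ℝ) ≤ L * 𝒟.val x₂ τ := by exact_mod_cast hLτ
  have h5 : (X.card : ℝ) ≤ L * 𝒞.val v₁ T := by exact_mod_cast hvT v₁ hv₁
  have h6 : (𝒟.val v₁ α : ℝ) ≤ (𝒟.cls (𝒟.c1 x₁)).card := by
    have : 𝒟.val v₁ α ≤ (𝒟.cls (𝒟.c1 x₁)).card := by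
      refine card_le_card fun z hz => ?_
      exact (𝒟.mem_cls _ _).2 (𝒟.c1_of_c2 (by omega) (mem_filter.1 hz).2).2
    exact_mod_cast this
  -- the lower bound from the mixing in `𝒟`
  have hlow := low 𝒟 hk hBD (v₁ := v₁) (x₁ := x₁) (y₁ := y₁) hx hy rfl rfl rfl rfl rfl
    (alg2 hL1 hDL' hn hp0 hq0 hp'0 hq'0 hk0 hpn hqn h2 h3 h4 h6)
  -- the tensors
  have hlabf : ∀ v, F1 𝒟 α β τ v x₂ y₂ ≠ 0 → 𝒞.c2 v x₂ = R ∧ 𝒞.c2 x₂ y₂ = R ∧ 𝒞.c2 y₂ v = R := by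
    intro v h
    have h7 := F1_ne 𝒟 h
    refine ⟨(hr2 _ _ _ _ h7.1).trans hvx, hxy, ?_⟩
    exact (𝒞.c2_swap hm2' (hr2 _ _ _ _ h7.2.1)).trans hyv
  set G : V → V → V → ℝ := fun v x y =>
    𝒟.ind ℝ α v x * 𝒟.ind ℝ β v y * labf 𝒞 R lab ε v x y with hG
  set F2 : V → V → V → ℝ := fun v x y =>
    F1 𝒟 α β τ v x y * (if lab (𝒞.c3 v x y) = ε then 1 else 0) with hF2
  have hGi : ∀ v x y v' x' y', 𝒟.c3 v x y = 𝒟.c3 v' x' y' → G v x y = G v' x' y' := by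
    intro v x y v' x' y' h
    have h7 := 𝒟.c3_sub hk h
    simp only [hG, 𝒟.ind_apply]
    rw [h7.1, h7.2.1, labf_inv 𝒞 hm3' R lab ε (hr3 _ _ _ _ _ _ h)]
  have hF2i : ∀ v x y v' x' y', 𝒟.c3 v x y = 𝒟.c3 v' x' y' → F2 v x y = F2 v' x' y' := by
    intro v x y v' x' y' h
    simp only [hF2]
    rw [F1_inv 𝒟 hk α β τ v x y v' x' y' h, hr3 _ _ _ _ _ _ h]
  have hGeq : ∀ v, G v x₂ y₂ = 3 * F2 v x₂ y₂ - F1 𝒟 α β τ v x₂ y₂ := by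
    intro v
    by_cases h : F1 𝒟 α β τ v x₂ y₂ = 0
    · simp only [hF2, h]
      rw [F1, 𝒟.ind_apply τ, if_pos rfl, mul_one] at h
      simp only [hG, h]
      ring
    · have h7 := hlabf v h
      have h8 := F1_ne 𝒟 h
      simp only [hF2, hG]
      rw [F1_eq, if_pos h8, labf, if_pos h7, 𝒟.ind_apply, if_pos h8.1, 𝒟.ind_apply,
        if_pos h8.2.1]
      split_ifs <;> norm_num
  -- quasirandomness
  have hstar := star 𝒞 hm3 hBC hBC2 hv₁ hR hT hG1 hG2 (labf 𝒞 R lab ε)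
    (fun v x y v' x' y' h => labf_inv 𝒞 hm3' R lab ε h)
    (fun v x y h => labf_ne 𝒞 R lab ε h) (labf_abs 𝒞 R lab ε)
    (fun x y => by
      rw [← lab_sum 𝒞 hm3' hlab ε x y]
      refine Finset.sum_subset (Finset.subset_univ _) fun v _ hv => ?_
      by_contra h
      exact hv (hRX _ _ (labf_ne 𝒞 R lab ε h).1).1)
    (fun v x => 𝒟.ind ℝ α v x) (fun y v => 𝒟.ind ℝ β v y)
    (fun v x => by rw [abs_of_nonneg (ind_nonneg 𝒟 α v x)]; exact ind_le_one 𝒟 α v x)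
    (fun y v => by rw [abs_of_nonneg (ind_nonneg 𝒟 β v y)]; exact ind_le_one 𝒟 β v y)
  rw [← hX] at hstar
  have hphi := phi_low 𝒟 hk (X := X) (x₂ := x₂) (y₂ := y₂) G hGi
    (fun v x y h => (hRX _ _ (labf_ne 𝒞 R lab ε (right_ne_zero_of_mul h)).1).1)
    (fun x y h => hRX x y ((hr2 _ _ _ _ h).trans hxy))
  rw [hx] at hphi
  have hGsum : ∑ v, G v x₂ y₂ = 3 * (∑ v, F2 v x₂ y₂) - ∑ v, F1 𝒟 α β τ v x₂ y₂ := by
    rw [Finset.mul_sum, ← Finset.sum_sub_distrib]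
    exact Finset.sum_congr rfl fun v _ => hGeq v
  rw [hGsum] at hphi
  have e1 : Real.sqrt D * ((𝒞.val v₁ T : ℝ) * (((𝒟.cls (𝒟.c1 x₁)).card * (𝒟.val x₂ τ : ℝ)) *
      (3 * (∑ v, F2 v x₂ y₂) - ∑ v, F1 𝒟 α β τ v x₂ y₂) ^ 2)) ≤ 12 * (X.card : ℝ) ^ 5 := by
    refine le_trans ?_ hstar
    refine mul_le_mul_of_nonneg_left (mul_le_mul_of_nonneg_left hphi hkT0.le) hE0
  -- double counting
  have c1 := dc 𝒟 hk (F1 𝒟 α β τ) (F1_inv 𝒟 hk α β τ) (x₂ := x₂) (y₂ := y₂)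
    (fun v x y h => (F1_ne 𝒟 h).2.2)
  have c2 := dc' 𝒟 hk (F1 𝒟 α β τ) (F1_inv 𝒟 hk α β τ) (v₁ := v₁)
    (fun v x y h => (𝒟.c1_of_c2 (by omega) (F1_ne 𝒟 h).1).1)
  have c3 := dc 𝒟 hk F2 hF2i (x₂ := x₂) (y₂ := y₂)
    (fun v x y h => (F1_ne 𝒟 (left_ne_zero_of_mul h)).2.2)
  have c4 := dc' 𝒟 hk F2 hF2i (v₁ := v₁)
    (fun v x y h => (𝒟.c1_of_c2 (by omega) (F1_ne 𝒟 (left_ne_zero_of_mul h)).1).1)
  rw [hx] at c1 c3
  rw [c1] at c2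
  rw [c3] at c4
  push_cast at c2 c4
  have hA0 : 0 ≤ ∑ v, F1 𝒟 α β τ v x₂ y₂ := by
    refine Finset.sum_nonneg fun v _ => ?_
    rw [F1_eq]; split_ifs <;> norm_num
  have hfin := alg hE2 hE0 hL1 hDL' hn hp0 hq0 hp'0 hq'0 hk0 hP0 hkT0 hpn hqn rfl h1 h2 h3 h4 h5
    h6 e1 c2 c4 hlow hA0
  -- back to natural numbers
  have hZ : ∑ x, ∑ y, F2 v₁ x y = ((univ.filter fun q : V × V => 𝒟.c2 v₁ q.1 = α ∧
      𝒟.c2 v₁ q.2 = β ∧ 𝒟.c2 q.1 q.2 = τ ∧ lab (𝒞.c3 v₁ q.1 q.2) = ε).card : ℝ) := by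
    rw [Finset.card_filter, Nat.cast_sum, ← Finset.univ_product_univ, Finset.sum_product]
    refine Finset.sum_congr rfl fun x _ => Finset.sum_congr rfl fun y _ => ?_
    simp only [hF2]
    rw [F1_eq]
    by_cases g1 : 𝒟.c2 v₁ x = α <;> by_cases g2 : 𝒟.c2 v₁ y = β <;>
      by_cases g3 : 𝒟.c2 x y = τ <;> by_cases g4 : lab (𝒞.c3 v₁ x y) = ε <;>
      simp [g1, g2, g3, g4]
  rw [hZ] at hfin
  exact_mod_cast hfin

end Vale.Agent.P319.SC.H235
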