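import Vale.Agent.P319.SC.H235.Triple

/-! P319, block SC: the tripling lemma, end of the proof. -/

namespace Vale.Agent.P319.SC.H235

open Finset Matrix Vale.Agent.P319.SC Vale.Agent.P319.SC.H323

set_option linter.all false

variable {V ι : Type} [Fintype V] [DecidableEq V] [DecidableEq ι] {m : ℕ}

theorem sum_ind_row (𝒟 : Cfg V ι m) (hm : 2 ≤ m) (v₁ x₁ : V) :
    ∑ x ∈ 𝒟.cls (𝒟.c1 x₁), 𝒟.ind ℝ (𝒟.c2 v₁ x₁) v₁ x = (𝒟.val v₁ (𝒟.c2 v₁ x₁) : ℝ) := by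
  rw [Cfg.val, Finset.card_filter, Nat.cast_sum,
    ← Finset.sum_subset (Finset.subset_univ (𝒟.cls (𝒟.c1 x₁)))]
  · refine Finset.sum_congr rfl fun b _ => ?_
    rw [𝒟.ind_apply]
    split_ifs <;> simp
  · intro b _ hb
    rw [if_neg, Nat.cast_zero]
    intro h
    exact hb ((𝒟.mem_cls _ _).2 (𝒟.c1_of_c2 hm h).2)

/-- many triples `(v₁, x, y)` with `𝒟.c2 x y = τ` -/
theorem low (𝒟 : Cfg V ι m) (hm : 3 ≤ m) {D : ℕ} (hD : BigRank 𝒟 D) {v₁ x₁ y₁ x₂ y₂ : V}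
    (hx : 𝒟.c1 x₂ = 𝒟.c1 x₁) (hy : 𝒟.c1 y₂ = 𝒟.c1 y₁) {p q p' q' k : ℝ}
    (hp : p = ((𝒟.cls (𝒟.c1 x₁)).card : ℝ)) (hq : q = ((𝒟.cls (𝒟.c1 y₁)).card : ℝ))
    (hp' : p' = (𝒟.val v₁ (𝒟.c2 v₁ x₁) : ℝ)) (hq' : q' = (𝒟.val v₁ (𝒟.c2 v₁ y₁) : ℝ))
    (hk : k = (𝒟.val x₂ (𝒟.c2 x₂ y₂) : ℝ)) (hbig : 4 * (p * q) ^ 2 ≤ D * (p * k * (p' * q'))) :
    p * k * (p' * q') ≤ p * q * (2 * ∑ x, ∑ y, 𝒟.ind ℝ (𝒟.c2 v₁ x₁) v₁ x *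
      𝒟.ind ℝ (𝒟.c2 v₁ y₁) v₁ y * 𝒟.ind ℝ (𝒟.c2 x₂ y₂) x y) := by
  have hp0 : 0 < p := by rw [hp]; exact_mod_cast 𝒟.cls_pos x₁
  have hq0 : 0 < q := by rw [hq]; exact_mod_cast 𝒟.cls_pos y₁
  have hp'0 : 0 < p' := by rw [hp']; exact_mod_cast 𝒟.val_pos v₁ x₁
  have hq'0 : 0 < q' := by rw [hq']; exact_mod_cast 𝒟.val_pos v₁ y₁
  have hk0 : 0 < k := by rw [hk]; exact_mod_cast 𝒟.val_pos x₂ y₂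
  have hτ : 𝒟.c2 x₂ y₂ ∈ 𝒟.rels (𝒟.c1 x₁) (𝒟.c1 y₁) :=
    (𝒟.mem_rels _ _ _).2 ⟨x₂, y₂, hx, hy, rfl⟩
  have key := mix 𝒟 hm hD (𝒟.inv2_ind (K := ℝ) (𝒟.c2 x₂ y₂)) (𝒟.c1 x₁) (𝒟.c1 y₁)
    (𝒟.ind ℝ (𝒟.c2 v₁ x₁) v₁) (𝒟.ind ℝ (𝒟.c2 v₁ y₁) v₁)
  simp only [ind_sq] at key
  rw [sum_ind_cls 𝒟 (by omega) hx hτ, sum_ind_row 𝒟 (by omega), sum_ind_row 𝒟 (by omega),
    ← hp, ← hq, ← hp', ← hq', ← hk] at key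
  have hN : ∑ x, ∑ y, 𝒟.ind ℝ (𝒟.c2 v₁ x₁) v₁ x *
      𝒟.ind ℝ (𝒟.c2 v₁ y₁) v₁ y * 𝒟.ind ℝ (𝒟.c2 x₂ y₂) x y =
      ∑ x ∈ 𝒟.cls (𝒟.c1 x₁), ∑ y ∈ 𝒟.cls (𝒟.c1 y₁), 𝒟.ind ℝ (𝒟.c2 v₁ x₁) v₁ x *
        𝒟.ind ℝ (𝒟.c2 x₂ y₂) x y * 𝒟.ind ℝ (𝒟.c2 v₁ y₁) v₁ y := by
    have h1 : ∀ x, ∑ y, 𝒟.ind ℝ (𝒟.c2 v₁ x₁) v₁ x *
        𝒟.ind ℝ (𝒟.c2 v₁ y₁) v₁ y * 𝒟.ind ℝ (𝒟.c2 x₂ y₂) x y =
        ∑ y ∈ 𝒟.cls (𝒟.c1 y₁), 𝒟.ind ℝ (𝒟.c2 v₁ x₁) v₁ x *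
        𝒟.ind ℝ (𝒟.c2 x₂ y₂) x y * 𝒟.ind ℝ (𝒟.c2 v₁ y₁) v₁ y := by
      intro x
      rw [← Finset.sum_subset (Finset.subset_univ (𝒟.cls (𝒟.c1 y₁)))]
      · exact Finset.sum_congr rfl fun y _ => by ring
      · intro y _ hy1
        have : 𝒟.ind ℝ (𝒟.c2 v₁ y₁) v₁ y = 0 := by
          rw [𝒟.ind_apply, if_neg]
          intro h
          exact hy1 ((𝒟.mem_cls _ _).2 (𝒟.c1_of_c2 (by omega) h).2)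
        rw [this]; ring
    simp only [h1]
    refine (Finset.sum_subset (Finset.subset_univ _) fun x _ hx1 => ?_).symm
    refine Finset.sum_eq_zero fun y _ => ?_
    have : 𝒟.ind ℝ (𝒟.c2 v₁ x₁) v₁ x = 0 := by
      rw [𝒟.ind_apply, if_neg]
      intro h
      exact hx1 ((𝒟.mem_cls _ _).2 (𝒟.c1_of_c2 (by omega) h).2)
    rw [this]; ring
  rw [hN]
  set N : ℝ := ∑ x ∈ 𝒟.cls (𝒟.c1 x₁), ∑ y ∈ 𝒟.cls (𝒟.c1 y₁), 𝒟.ind ℝ (𝒟.c2 v₁ x₁) v₁ x *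
        𝒟.ind ℝ (𝒟.c2 x₂ y₂) x y * 𝒟.ind ℝ (𝒟.c2 v₁ y₁) v₁ y with hNdef
  set c : ℝ := p * k / (p * q) * (p' * q') with hc
  have hc0 : 0 < c := by positivity
  have hcpq : c * (p * q) = p * k * (p' * q') := by
    rw [hc]; field_simp
  rw [← hcpq] at key hbig ⊢
  by_contra hcon
  rw [not_le] at hcon
  have h2 : 2 * N < c := by
    by_contra h3
    rw [not_lt] at h3
    have := mul_le_mul_of_nonneg_right h3 (mul_pos hp0 hq0).le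
    linarith
  have h3 : c ^ 2 / 4 < (N - c) ^ 2 := by nlinarith
  have hpq : 0 < p * q := mul_pos hp0 hq0
  have hD0 : (0 : ℝ) < D := by
    rcases Nat.eq_zero_or_pos D with h0 | h0
    · rw [h0, Nat.cast_zero, zero_mul] at hbig
      have : 0 < 4 * (p * q) ^ 2 := by positivity
      linarith
    · exact_mod_cast h0
  have h4 : D * (c ^ 2 / 4) < c * (p * q) := lt_of_lt_of_le (mul_lt_mul_of_pos_left h3 hD0) key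
  have h5 : c * (D * c) < c * (4 * (p * q)) := by linarith
  have h6 : D * c < 4 * (p * q) := lt_of_mul_lt_mul_left h5 hc0.le
  have h7 : (p * q) * (4 * (p * q)) ≤ (p * q) * (D * c) := by linarith
  have h8 := le_of_mul_le_mul_left h7 hpq
  linarith

end Vale.Agent.P319.SC.H235
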