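import Vale.Agent.P319.SC.H323.Tri

/-! P319, block SC: mixing between two classes, for arbitrary invariant matrices. -/

namespace Vale.Agent.P319.SC.H235

open Finset Matrix Vale.Agent.P319.SC Vale.Agent.P319.H924 Vale.Agent.P319.SC.H323

set_option linter.all false

variable {V ι : Type} [Fintype V] [DecidableEq V] [DecidableEq ι] {m : ℕ}

theorem norm_le (𝒞 : Cfg V ι m) (hm : 3 ≤ m) {D : ℕ} (hD : BigRank 𝒞 D) {S : Matrix V V ℝ}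
    (hIS : 𝒞.Inv2 S) (hNS : 𝒞.Non S) (u : V → ℝ) :
    D * (S *ᵥ u ⬝ᵥ S *ᵥ u) ≤ (∑ a, ∑ b, S a b ^ 2) * (u ⬝ᵥ u) := by
  have hISS : 𝒞.Inv2 (S.transpose * S) :=
    H924.Inv2.mul hm (H924.Inv2.transpose (by omega) hIS) hIS
  refine norm_bound S D (fun q hq => ?_) u
  refine hD _ ?_ ?_ hq
  · exact H924.Inv2.mul hm hISS (H924.Inv2.aeval hm hISS q)
  · have hc : S.transpose * S * Polynomial.aeval (S.transpose * S) q =
        (Polynomial.aeval (S.transpose * S) q * S.transpose) * S := by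
      have e : S.transpose * S * Polynomial.aeval (S.transpose * S) q =
          Polynomial.aeval (S.transpose * S) q * (S.transpose * S) := by
        have h1 : Polynomial.aeval (S.transpose * S) (Polynomial.X * q) =
            Polynomial.aeval (S.transpose * S) (q * Polynomial.X) := by rw [mul_comm]
        rwa [map_mul, map_mul, Polynomial.aeval_X] at h1
      rw [e, Matrix.mul_assoc]
    rw [hc]
    exact Non.mul_left _ hNS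

/-- the indicator of `cls ρ × cls σ` -/
def jj (𝒞 : Cfg V ι m) (ρ σ : ι) : Matrix V V ℝ :=
  fun a b => if 𝒞.c1 a = ρ ∧ 𝒞.c1 b = σ then 1 else 0

/-- **mixing** -/
theorem mix (𝒞 : Cfg V ι m) (hm : 3 ≤ m) {D : ℕ} (hD : BigRank 𝒞 D) {M : Matrix V V ℝ}
    (hM : 𝒞.Inv2 M) (ρ σ : ι) (w u : V → ℝ) :
    D * (∑ a ∈ 𝒞.cls ρ, ∑ b ∈ 𝒞.cls σ, w a * M a b * u b -
      ((∑ a ∈ 𝒞.cls ρ, ∑ b ∈ 𝒞.cls σ, M a b) / ((𝒞.cls ρ).card * (𝒞.cls σ).card)) *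
        ((∑ a ∈ 𝒞.cls ρ, w a) * (∑ b ∈ 𝒞.cls σ, u b))) ^ 2 ≤
    (∑ a ∈ 𝒞.cls ρ, ∑ b ∈ 𝒞.cls σ, M a b ^ 2) *
      ((∑ a ∈ 𝒞.cls ρ, w a ^ 2) * (∑ b ∈ 𝒞.cls σ, u b ^ 2)) := by
  rcases (𝒞.cls ρ).eq_empty_or_nonempty with h0 | ⟨a₀, ha₀⟩
  · simp [h0]
  rcases (𝒞.cls σ).eq_empty_or_nonempty with h0 | ⟨b₀, hb₀⟩
  · simp [h0]
  have hρ : (0 : ℝ) < (𝒞.cls ρ).card := by exact_mod_cast card_pos.2 ⟨a₀, ha₀⟩
  have hσ : (0 : ℝ) < (𝒞.cls σ).card := by exact_mod_cast card_pos.2 ⟨b₀, hb₀⟩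
  have ha₀' := (𝒞.mem_cls _ _).1 ha₀
  set s : ℝ := ∑ a ∈ 𝒞.cls ρ, ∑ b ∈ 𝒞.cls σ, M a b with hs
  set p : ℝ := ((𝒞.cls ρ).card : ℝ) with hp
  set q : ℝ := ((𝒞.cls σ).card : ℝ) with hq
  set c : ℝ := s / (p * q) with hc
  set N : Matrix V V ℝ := fun a b => if 𝒞.c1 a = ρ ∧ 𝒞.c1 b = σ then M a b - c else 0 with hN
  have hNi : 𝒞.Inv2 N := by
    intro a b a' b' h
    simp only [hN]
    rw [(𝒞.c1_of_c2 (by omega) h).1, (𝒞.c1_of_c2 (by omega) h).2, hM _ _ _ _ h]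
  -- row sums
  have hrow : ∀ a ∈ 𝒞.cls ρ, ∑ b ∈ 𝒞.cls σ, M a b = s / p := by
    intro a ha
    have h1 : ∀ a' ∈ 𝒞.cls ρ, ∑ b ∈ 𝒞.cls σ, M a' b = ∑ b ∈ 𝒞.cls σ, M a b := by
      intro a' ha'
      exact Cfg.Inv2.rowsum (by omega) hM
        (((𝒞.mem_cls _ _).1 ha').trans ((𝒞.mem_cls _ _).1 ha).symm) σ
    have h2 : s = p * ∑ b ∈ 𝒞.cls σ, M a b := by
      rw [hs, Finset.sum_congr rfl h1, Finset.sum_const, nsmul_eq_mul]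
    rw [h2]; field_simp
  have hNon : 𝒞.Non N := by
    intro a σ'
    by_cases ha : 𝒞.c1 a = ρ
    · by_cases hσ' : σ' = σ
      · subst hσ'
        have h1 : ∀ b ∈ 𝒞.cls σ', N a b = M a b - c := by
          intro b hb
          simp only [hN]
          rw [if_pos ⟨ha, (𝒞.mem_cls _ _).1 hb⟩]
        rw [Finset.sum_congr rfl h1, Finset.sum_sub_distrib, hrow a ((𝒞.mem_cls _ _).2 ha),
          Finset.sum_const, nsmul_eq_mul, ← hq, hc]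
        field_simp
        ring
      · refine Finset.sum_eq_zero fun b hb => ?_
        simp only [hN]
        rw [if_neg]
        rintro ⟨-, h2⟩
        exact hσ' (((𝒞.mem_cls _ _).1 hb).symm.trans h2)
    · refine Finset.sum_eq_zero fun b hb => ?_
      simp only [hN]
      rw [if_neg]
      exact fun h => ha h.1
  -- sums over the support
  have sumN : ∀ F : V → V → ℝ, (∀ a b, ¬ (𝒞.c1 a = ρ ∧ 𝒞.c1 b = σ) → F a b = 0) →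
      ∑ a, ∑ b, F a b = ∑ a ∈ 𝒞.cls ρ, ∑ b ∈ 𝒞.cls σ, F a b := by
    intro F hF
    have h1 : ∀ a, ∑ b, F a b = ∑ b ∈ 𝒞.cls σ, F a b := by
      intro a
      refine (Finset.sum_subset (Finset.subset_univ _) fun b _ hb => ?_).symm
      exact hF a b fun h => hb ((𝒞.mem_cls _ _).2 h.2)
    simp only [h1]
    refine (Finset.sum_subset (Finset.subset_univ _) fun a _ ha => ?_).symm
    exact Finset.sum_eq_zero fun b _ => hF a b fun h => ha ((𝒞.mem_cls _ _).2 h.1)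
  have hNv : ∀ a ∈ 𝒞.cls ρ, ∀ b ∈ 𝒞.cls σ, N a b = M a b - c := by
    intro a ha b hb
    simp only [hN]
    rw [if_pos ⟨(𝒞.mem_cls _ _).1 ha, (𝒞.mem_cls _ _).1 hb⟩]
  have hN0 : ∀ a b, ¬ (𝒞.c1 a = ρ ∧ 𝒞.c1 b = σ) → N a b = 0 := by
    intro a b h
    simp only [hN]
    rw [if_neg h]
  -- the Hilbert–Schmidt norm
  have hHS : ∑ a, ∑ b, N a b ^ 2 ≤ ∑ a ∈ 𝒞.cls ρ, ∑ b ∈ 𝒞.cls σ, M a b ^ 2 := by
    rw [sumN _ (fun a b h => by rw [hN0 a b h]; norm_num)]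
    have h1 : ∑ a ∈ 𝒞.cls ρ, ∑ b ∈ 𝒞.cls σ, N a b ^ 2 =
        ∑ a ∈ 𝒞.cls ρ, ∑ b ∈ 𝒞.cls σ, M a b ^ 2 - 2 * c * s + c ^ 2 * (p * q) := by
      have h2 : ∀ a ∈ 𝒞.cls ρ, ∑ b ∈ 𝒞.cls σ, N a b ^ 2 =
          ∑ b ∈ 𝒞.cls σ, M a b ^ 2 - 2 * c * ∑ b ∈ 𝒞.cls σ, M a b + c ^ 2 * q := by
        intro a ha
        have h3 : ∀ b ∈ 𝒞.cls σ, N a b ^ 2 = M a b ^ 2 - 2 * c * M a b + c ^ 2 := by
          intro b hb
          rw [hNv a ha b hb]; ring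
        rw [Finset.sum_congr rfl h3, Finset.sum_add_distrib, Finset.sum_sub_distrib,
          ← Finset.mul_sum, Finset.sum_const, nsmul_eq_mul, ← hq]
        ring
      rw [Finset.sum_congr rfl h2, Finset.sum_add_distrib, Finset.sum_sub_distrib,
        ← Finset.mul_sum, Finset.sum_const, nsmul_eq_mul, ← hp, ← hs]
      ring
    rw [h1]
    have h4 : c ^ 2 * (p * q) = c * s := by
      rw [hc]; field_simp
    have h5 : 0 ≤ c * s := by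
      rw [hc]
      have : s / (p * q) * s = s ^ 2 / (p * q) := by ring
      rw [this]; positivity
    linarith
  -- the vector
  set u' : V → ℝ := fun b => if 𝒞.c1 b = σ then u b else 0 with hu'
  have huu : u' ⬝ᵥ u' = ∑ b ∈ 𝒞.cls σ, u b ^ 2 := by
    simp only [dotProduct, hu']
    rw [Cfg.cls, Finset.sum_filter]
    refine Finset.sum_congr rfl fun b _ => ?_
    split_ifs <;> ring
  have key := norm_le 𝒞 hm hD hNi hNon u'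
  rw [huu] at key
  have hexp : ∑ a ∈ 𝒞.cls ρ, ∑ b ∈ 𝒞.cls σ, w a * M a b * u b -
      c * ((∑ a ∈ 𝒞.cls ρ, w a) * (∑ b ∈ 𝒞.cls σ, u b)) =
      ∑ a ∈ 𝒞.cls ρ, w a * (N *ᵥ u') a := by
    have h1 : ∀ a ∈ 𝒞.cls ρ, w a * (N *ᵥ u') a =
        ∑ b ∈ 𝒞.cls σ, w a * M a b * u b - c * (w a * ∑ b ∈ 𝒞.cls σ, u b) := by
      intro a ha
      have h2 : (N *ᵥ u') a = ∑ b ∈ 𝒞.cls σ, (M a b - c) * u b := by
        simp only [mulVec, dotProduct]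
        rw [← Finset.sum_subset (Finset.subset_univ (𝒞.cls σ))]
        · refine Finset.sum_congr rfl fun b hb => ?_
          rw [hNv a ha b hb, hu']
          simp only
          rw [if_pos ((𝒞.mem_cls _ _).1 hb)]
        · intro b _ hb
          rw [hu']
          simp only
          rw [if_neg (fun h => hb ((𝒞.mem_cls _ _).2 h)), mul_zero]
      rw [h2, Finset.mul_sum, Finset.mul_sum, Finset.mul_sum, ← Finset.sum_sub_distrib]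
      refine Finset.sum_congr rfl fun b _ => ?_
      ring
    rw [Finset.sum_congr rfl h1, Finset.sum_sub_distrib, ← Finset.mul_sum, ← Finset.sum_mul]
  rw [hexp]
  have hcs : (∑ a ∈ 𝒞.cls ρ, w a * (N *ᵥ u') a) ^ 2 ≤
      (∑ a ∈ 𝒞.cls ρ, w a ^ 2) * (N *ᵥ u' ⬝ᵥ N *ᵥ u') := by
    refine (Finset.sum_mul_sq_le_sq_mul_sq _ _ _).trans ?_
    refine mul_le_mul_of_nonneg_left ?_ (Finset.sum_nonneg fun a _ => sq_nonneg _)
    simp only [dotProduct, ← pow_two]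
    exact Finset.sum_le_sum_of_subset_of_nonneg (Finset.subset_univ _)
      fun i _ _ => sq_nonneg _
  have hw0 : 0 ≤ ∑ a ∈ 𝒞.cls ρ, w a ^ 2 := Finset.sum_nonneg fun a _ => sq_nonneg _
  have hu0 : 0 ≤ ∑ b ∈ 𝒞.cls σ, u b ^ 2 := Finset.sum_nonneg fun a _ => sq_nonneg _
  calc (D : ℝ) * (∑ a ∈ 𝒞.cls ρ, w a * (N *ᵥ u') a) ^ 2
      ≤ D * ((∑ a ∈ 𝒞.cls ρ, w a ^ 2) * (N *ᵥ u' ⬝ᵥ N *ᵥ u')) :=
        mul_le_mul_of_nonneg_left hcs (Nat.cast_nonneg _)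
    _ = (∑ a ∈ 𝒞.cls ρ, w a ^ 2) * (D * (N *ᵥ u' ⬝ᵥ N *ᵥ u')) := by ring
    _ ≤ (∑ a ∈ 𝒞.cls ρ, w a ^ 2) * ((∑ a, ∑ b, N a b ^ 2) * ∑ b ∈ 𝒞.cls σ, u b ^ 2) :=
        mul_le_mul_of_nonneg_left key hw0
    _ ≤ (∑ a ∈ 𝒞.cls ρ, w a ^ 2) * ((∑ a ∈ 𝒞.cls ρ, ∑ b ∈ 𝒞.cls σ, M a b ^ 2) *
          ∑ b ∈ 𝒞.cls σ, u b ^ 2) :=
        mul_le_mul_of_nonneg_left (mul_le_mul_of_nonneg_right hHS hu0) hw0
    _ = _ := by ring

/-- mixing, with square roots -/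
theorem mix_abs (𝒞 : Cfg V ι m) (hm : 3 ≤ m) {D : ℕ} (hD : BigRank 𝒞 D) {M : Matrix V V ℝ}
    (hM : 𝒞.Inv2 M) (ρ σ : ι) (w u : V → ℝ) {K : ℝ} (hK : 0 ≤ K)
    (h : (∑ a ∈ 𝒞.cls ρ, ∑ b ∈ 𝒞.cls σ, M a b ^ 2) *
      ((∑ a ∈ 𝒞.cls ρ, w a ^ 2) * (∑ b ∈ 𝒞.cls σ, u b ^ 2)) ≤ K ^ 2) :
    Real.sqrt D * |∑ a ∈ 𝒞.cls ρ, ∑ b ∈ 𝒞.cls σ, w a * M a b * u b -
      ((∑ a ∈ 𝒞.cls ρ, ∑ b ∈ 𝒞.cls σ, M a b) / ((𝒞.cls ρ).card * (𝒞.cls σ).card)) *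
        ((∑ a ∈ 𝒞.cls ρ, w a) * (∑ b ∈ 𝒞.cls σ, u b))| ≤ K := by
  refine abs_le_of_sq_le_sq' ?_ hK |>.2
  rw [mul_pow, Real.sq_sqrt (Nat.cast_nonneg _), sq_abs]
  exact (mix 𝒞 hm hD hM ρ σ w u).trans h

end Vale.Agent.P319.SC.H235
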