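import Vale.Agent.P319.SC.H235.Mixing

/-! P319, block SC: the tensor of the labels is quasirandom. -/

namespace Vale.Agent.P319.SC.H235

open Finset Matrix Vale.Agent.P319.SC Vale.Agent.P319.SC.H323

set_option linter.all false

variable {V ι : Type} [Fintype V] [DecidableEq V] [DecidableEq ι] {m : ℕ}

theorem sum4_comm (X : Finset V) (G : V → V → V → V → ℝ) :
    ∑ x ∈ X, ∑ y ∈ X, ∑ v ∈ X, ∑ v' ∈ X, G x y v v' =
      ∑ v ∈ X, ∑ v' ∈ X, ∑ x ∈ X, ∑ y ∈ X, G x y v v' := by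
  calc ∑ x ∈ X, ∑ y ∈ X, ∑ v ∈ X, ∑ v' ∈ X, G x y v v'
      = ∑ x ∈ X, ∑ v ∈ X, ∑ y ∈ X, ∑ v' ∈ X, G x y v v' :=
        Finset.sum_congr rfl fun x _ => Finset.sum_comm
    _ = ∑ v ∈ X, ∑ x ∈ X, ∑ y ∈ X, ∑ v' ∈ X, G x y v v' := Finset.sum_comm
    _ = ∑ v ∈ X, ∑ x ∈ X, ∑ v' ∈ X, ∑ y ∈ X, G x y v v' :=
        Finset.sum_congr rfl fun v _ => Finset.sum_congr rfl fun x _ => Finset.sum_comm
    _ = ∑ v ∈ X, ∑ v' ∈ X, ∑ x ∈ X, ∑ y ∈ X, G x y v v' :=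
        Finset.sum_congr rfl fun v _ => Finset.sum_comm

/-- the number of pairs with colour `T` -/
theorem sum_ind_cls (𝒞 : Cfg V ι m) (hm : 2 ≤ m) {ρ σ : ι} {v₀ : V} {T : ι} (hv₀ : 𝒞.c1 v₀ = ρ)
    (hT : T ∈ 𝒞.rels ρ σ) :
    ∑ a ∈ 𝒞.cls ρ, ∑ b ∈ 𝒞.cls σ, 𝒞.ind ℝ T a b = (𝒞.cls ρ).card * (𝒞.val v₀ T : ℝ) := by
  have h1 : ∀ a ∈ 𝒞.cls ρ, ∑ b ∈ 𝒞.cls σ, 𝒞.ind ℝ T a b = (𝒞.val v₀ T : ℝ) := by
    intro a ha
    rw [𝒞.mem_cls] at ha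
    rw [𝒞.val_eq hm (hv₀.trans ha.symm) T, Cfg.val, Finset.card_filter, Nat.cast_sum]
    rw [← Finset.sum_subset (Finset.subset_univ (𝒞.cls σ))]
    · refine Finset.sum_congr rfl fun b _ => ?_
      rw [𝒞.ind_apply]
      split_ifs <;> simp
    · intro b _ hb
      rw [if_neg, Nat.cast_zero]
      intro h
      obtain ⟨x, y, h1, h2, h3⟩ := (𝒞.mem_rels _ _ _).1 hT
      exact hb ((𝒞.mem_cls _ _).2 ((𝒞.c1_of_c2 hm (h.trans h3.symm)).2.trans h2))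
  rw [Finset.sum_congr rfl h1, Finset.sum_const, nsmul_eq_mul]

theorem ind_sq (𝒞 : Cfg V ι m) (T : ι) (a b : V) : 𝒞.ind ℝ T a b ^ 2 = 𝒞.ind ℝ T a b := by
  rw [𝒞.ind_apply]; split_ifs <;> norm_num

theorem ind_nonneg (𝒞 : Cfg V ι m) (T : ι) (a b : V) : 0 ≤ 𝒞.ind ℝ T a b := by
  rw [𝒞.ind_apply]; split_ifs <;> norm_num

theorem ind_le_one (𝒞 : Cfg V ι m) (T : ι) (a b : V) : 𝒞.ind ℝ T a b ≤ 1 := by
  rw [𝒞.ind_apply]; split_ifs <;> norm_num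

/-- sums over `X × X` of a function bounded by `c` -/
theorem sum2_le (X Y : Finset V) (F : V → V → ℝ) {c : ℝ} (h : ∀ a ∈ X, ∀ b ∈ Y, F a b ≤ c) :
    ∑ a ∈ X, ∑ b ∈ Y, F a b ≤ (X.card : ℝ) * (Y.card * c) := by
  have h1 : ∀ a ∈ X, ∑ b ∈ Y, F a b ≤ Y.card * c := by
    intro a ha
    rw [← nsmul_eq_mul]
    exact Finset.sum_le_card_nsmul _ _ _ (h a ha)
  rw [← nsmul_eq_mul]
  exact Finset.sum_le_card_nsmul _ _ _ h1

/-- quadratic forms of the colour `T` -/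
theorem quadT (𝒞 : Cfg V ι m) (hm : 3 ≤ m) {D : ℕ} (hD : BigRank 𝒞 D) {ρ T : ι} {v₀ : V}
    (hv₀ : 𝒞.c1 v₀ = ρ) (hT : T ∈ 𝒞.rels ρ ρ) (g : V → ℝ) (hg : ∀ v, |g v| ≤ 2) :
    Real.sqrt D * |∑ v ∈ 𝒞.cls ρ, ∑ v' ∈ 𝒞.cls ρ, g v * 𝒞.ind ℝ T v v' * g v' -
      ((𝒞.val v₀ T : ℝ) / (𝒞.cls ρ).card) * (∑ v ∈ 𝒞.cls ρ, g v) ^ 2| ≤
        4 * ((𝒞.cls ρ).card : ℝ) ^ 2 := by
  have hn : (0 : ℝ) < (𝒞.cls ρ).card := by
    exact_mod_cast card_pos.2 ⟨v₀, (𝒞.mem_cls _ _).2 hv₀⟩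
  have h1 := mix_abs 𝒞 hm hD (𝒞.inv2_ind (K := ℝ) T) ρ ρ g g
    (K := 4 * ((𝒞.cls ρ).card : ℝ) ^ 2) (by positivity) (by
      have h2 : ∑ a ∈ 𝒞.cls ρ, ∑ b ∈ 𝒞.cls ρ, 𝒞.ind ℝ T a b ^ 2 ≤
          ((𝒞.cls ρ).card : ℝ) * ((𝒞.cls ρ).card * 1) :=
        sum2_le _ _ _ fun a _ b _ => by rw [ind_sq]; exact ind_le_one 𝒞 T a b
      have h3 : ∑ a ∈ 𝒞.cls ρ, g a ^ 2 ≤ (𝒞.cls ρ).card * 4 := by
        rw [← nsmul_eq_mul]
        refine Finset.sum_le_card_nsmul _ _ _ fun a _ => ?_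
        have := hg a
        rw [← sq_abs]
        nlinarith [abs_nonneg (g a)]
      have h4 : 0 ≤ ∑ a ∈ 𝒞.cls ρ, g a ^ 2 := Finset.sum_nonneg fun a _ => sq_nonneg _
      calc _ ≤ (((𝒞.cls ρ).card : ℝ) * ((𝒞.cls ρ).card * 1)) *
            (((𝒞.cls ρ).card * 4) * ((𝒞.cls ρ).card * 4)) := by
            refine mul_le_mul h2 (mul_le_mul h3 h3 h4 (by positivity)) (by positivity)
              (by positivity)
        _ = _ := by ring)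
  rw [sum_ind_cls 𝒞 (by omega) hv₀ hT] at h1
  have e : (((𝒞.cls ρ).card : ℝ) * (𝒞.val v₀ T : ℝ)) / ((𝒞.cls ρ).card * (𝒞.cls ρ).card) =
      (𝒞.val v₀ T : ℝ) / (𝒞.cls ρ).card := by field_simp
  rw [e, ← pow_two] at h1
  exact h1

variable (𝒞 : Cfg V ι (m + 2))

theorem fixfix_c2 (hm : 2 ≤ m) (v v' x y : V) :
    ((𝒞.fix v).fix v').c2 x y = 𝒞.c4 v v' x y := by
  rw [Cfg.fix_c2 (m := m) (𝒞.fix v) hm v' x y]
  exact Cfg.fix_c3 (m := m + 1) 𝒞 (by omega) v v' x y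

theorem fixfix_c1 (hm : 1 ≤ m) (v v' x : V) :
    ((𝒞.fix v).fix v').c1 x = 𝒞.c3 v v' x := by
  rw [Cfg.fix_c1 (m := m) (𝒞.fix v) hm v' x]
  exact Cfg.fix_c2 (m := m + 1) 𝒞 (by omega) v v' x


omit 𝒞 in
/-- sums over a product set inside one pair of classes -/
theorem box (𝒟 : Cfg V ι m) (hm : 3 ≤ m) {D : ℕ} (hD : BigRank 𝒟 D) {M : Matrix V V ℝ}
    (hMi : 𝒟.Inv2 M) {X : Finset V} {x₁ y₁ : V}
    (hMs : ∀ x y, M x y ≠ 0 → 𝒟.c1 x = 𝒟.c1 x₁ ∧ 𝒟.c1 y = 𝒟.c1 y₁)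
    (hPX : 𝒟.cls (𝒟.c1 x₁) ⊆ X) (hQX : 𝒟.cls (𝒟.c1 y₁) ⊆ X) (hM4 : ∀ x y, |M x y| ≤ 4)
    {w u : V → ℝ} (hw1 : ∀ x, |w x| ≤ 1) (hu1 : ∀ x, |u x| ≤ 1) :
    Real.sqrt D * |∑ x ∈ X, ∑ y ∈ X, w x * M x y * u y| ≤
      Real.sqrt D * |∑ x ∈ X, ∑ y ∈ X, M x y| + 4 * (X.card : ℝ) ^ 2 := by
  set n : ℝ := (X.card : ℝ) with hn
  set E : ℝ := Real.sqrt D with hE
  have hE0 : 0 ≤ E := Real.sqrt_nonneg _
  have hn0 : 0 ≤ n := Nat.cast_nonneg _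
  set P := 𝒟.cls (𝒟.c1 x₁) with hP
  set Q := 𝒟.cls (𝒟.c1 y₁) with hQ
  have hPn : (P.card : ℝ) ≤ n := by rw [hn]; exact_mod_cast card_le_card hPX
  have hQn : (Q.card : ℝ) ≤ n := by rw [hn]; exact_mod_cast card_le_card hQX
  have hPp : (0 : ℝ) < P.card := by
    exact_mod_cast card_pos.2 ⟨x₁, (𝒟.mem_cls _ _).2 rfl⟩
  have hQp : (0 : ℝ) < Q.card := by
    exact_mod_cast card_pos.2 ⟨y₁, (𝒟.mem_cls _ _).2 rfl⟩
  have hMout : ∀ (F : V → V → ℝ), (∀ x y, M x y = 0 → F x y = 0) →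
      ∑ x ∈ X, ∑ y ∈ X, F x y = ∑ x ∈ P, ∑ y ∈ Q, F x y := by
    intro F hF
    have h4 : ∀ x, ∑ y ∈ X, F x y = ∑ y ∈ Q, F x y := by
      intro x
      refine (Finset.sum_subset hQX fun y _ hy => ?_).symm
      by_contra h5
      exact hy ((𝒟.mem_cls _ _).2 (hMs x y fun h => h5 (hF x y h)).2)
    simp only [h4]
    refine (Finset.sum_subset hPX fun x _ hx => ?_).symm
    refine Finset.sum_eq_zero fun y _ => ?_
    by_contra h5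
    exact hx ((𝒟.mem_cls _ _).2 (hMs x y fun h => h5 (hF x y h)).1)
  have sq1 : ∀ z : ℝ, |z| ≤ 1 → z ^ 2 ≤ 1 := by
    intro z hz
    rw [← sq_abs]
    nlinarith [abs_nonneg z]
  have hw2 : ∑ x ∈ P, w x ^ 2 ≤ n := by
    refine le_trans ?_ hPn
    have := Finset.sum_le_card_nsmul P (fun x => w x ^ 2) 1 fun x _ => sq1 _ (hw1 x)
    rwa [nsmul_eq_mul, mul_one] at this
  have hu2 : ∑ x ∈ Q, u x ^ 2 ≤ n := by
    refine le_trans ?_ hQn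
    have := Finset.sum_le_card_nsmul Q (fun x => u x ^ 2) 1 fun x _ => sq1 _ (hu1 x)
    rwa [nsmul_eq_mul, mul_one] at this
  have hw3 : |∑ x ∈ P, w x| ≤ P.card := by
    refine (Finset.abs_sum_le_sum_abs _ _).trans ?_
    have := Finset.sum_le_card_nsmul P (fun x => |w x|) 1 fun x _ => hw1 x
    rwa [nsmul_eq_mul, mul_one] at this
  have hu3 : |∑ x ∈ Q, u x| ≤ Q.card := by
    refine (Finset.abs_sum_le_sum_abs _ _).trans ?_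
    have := Finset.sum_le_card_nsmul Q (fun x => |u x|) 1 fun x _ => hu1 x
    rwa [nsmul_eq_mul, mul_one] at this
  have hMsq : ∀ x y, M x y ^ 2 ≤ 16 := by
    intro x y
    rw [← sq_abs]
    nlinarith [abs_nonneg (M x y), hM4 x y]
  have key := mix_abs 𝒟 hm hD hMi (𝒟.c1 x₁) (𝒟.c1 y₁) w u
    (K := 4 * n ^ 2) (by positivity) (by
      have h4 : ∑ x ∈ P, ∑ y ∈ Q, M x y ^ 2 ≤ n * (n * 16) := by
        refine (sum2_le P Q _ fun x _ y _ => hMsq x y).trans ?_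
        refine mul_le_mul hPn ?_ (by positivity) hn0
        exact mul_le_mul_of_nonneg_right hQn (by norm_num)
      have h5 : 0 ≤ ∑ x ∈ P, w x ^ 2 := Finset.sum_nonneg fun x _ => sq_nonneg _
      have h6 : 0 ≤ ∑ x ∈ Q, u x ^ 2 := Finset.sum_nonneg fun x _ => sq_nonneg _
      calc _ ≤ (n * (n * 16)) * (n * n) := by
            refine mul_le_mul h4 (mul_le_mul hw2 hu2 h6 hn0) (by positivity)
              (by positivity)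
        _ = (4 * n ^ 2) ^ 2 := by ring)
  rw [← hP, ← hQ, ← hE] at key
  rw [hMout (fun x y => M x y) fun x y h => h,
    hMout (fun x y => w x * M x y * u y) fun x y h => by simp [h]]
  set s₀ : ℝ := ∑ x ∈ P, ∑ y ∈ Q, M x y with hs₀
  set Z : ℝ := ∑ x ∈ P, ∑ y ∈ Q, w x * M x y * u y with hZ
  set Y : ℝ := s₀ / (P.card * Q.card) * ((∑ x ∈ P, w x) * ∑ y ∈ Q, u y) with hY
  have hYs : |Y| ≤ |s₀| := by
    rw [hY, abs_mul, abs_div, abs_mul (∑ x ∈ P, w x)]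
    rw [abs_of_pos (mul_pos hPp hQp)]
    calc |s₀| / (P.card * Q.card) * (|∑ x ∈ P, w x| * |∑ y ∈ Q, u y|)
        ≤ |s₀| / (P.card * Q.card) * (P.card * Q.card) := by
          refine mul_le_mul_of_nonneg_left ?_ (by positivity)
          exact mul_le_mul hw3 hu3 (abs_nonneg _) hPp.le
      _ = |s₀| := by field_simp
  have h8 : |Z| ≤ |Y| + |Z - Y| := by
    have : Z = Y + (Z - Y) := by ring
    calc |Z| = |Y + (Z - Y)| := by rw [← this]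
      _ ≤ _ := abs_add_le _ _
  calc E * |Z| ≤ E * (|Y| + |Z - Y|) := mul_le_mul_of_nonneg_left h8 hE0
    _ = E * |Y| + E * |Z - Y| := by ring
    _ ≤ E * |s₀| + 4 * n ^ 2 := add_le_add (mul_le_mul_of_nonneg_left hYs hE0) key

/-- **quasirandomness of the labels** -/
theorem star (hm : 3 ≤ m) {D : ℕ} (hD : BigRank 𝒞 D)
    (hD2 : ∀ v v', BigRank ((𝒞.fix v).fix v') D) {ρ₀ R T : ι} {v₀ : V} (hv₀ : 𝒞.c1 v₀ = ρ₀)
    (hR : R ∈ 𝒞.rels ρ₀ ρ₀) (hT : T ∈ 𝒞.rels ρ₀ ρ₀) (hG1 : UnspR 𝒞 R T) (hG2 : UnspL 𝒞 R T)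
    (f : V → V → V → ℝ)
    (hfi : ∀ v x y v' x' y', 𝒞.c3 v x y = 𝒞.c3 v' x' y' → f v x y = f v' x' y')
    (hfR : ∀ v x y, f v x y ≠ 0 → 𝒞.c2 v x = R ∧ 𝒞.c2 x y = R ∧ 𝒞.c2 y v = R)
    (hf2 : ∀ v x y, |f v x y| ≤ 2) (hf0 : ∀ x y, ∑ v ∈ 𝒞.cls ρ₀, f v x y = 0)
    (a b : V → V → ℝ) (ha : ∀ v x, |a v x| ≤ 1) (hb : ∀ y v, |b y v| ≤ 1) :
    Real.sqrt D * ((𝒞.val v₀ T : ℝ) * ∑ x ∈ 𝒞.cls ρ₀, ∑ y ∈ 𝒞.cls ρ₀,
      (∑ v ∈ 𝒞.cls ρ₀, a v x * b y v * f v x y) ^ 2) ≤ 12 * ((𝒞.cls ρ₀).card : ℝ) ^ 5 := by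
  set X := 𝒞.cls ρ₀ with hX
  set n : ℝ := (X.card : ℝ) with hn
  set k : ℝ := (𝒞.val v₀ T : ℝ) with hk
  set E : ℝ := Real.sqrt D with hE
  have hE0 : 0 ≤ E := Real.sqrt_nonneg _
  have hn0 : 0 < n := by
    rw [hn]
    exact_mod_cast card_pos.2 ⟨v₀, (𝒞.mem_cls _ _).2 hv₀⟩
  have hk0 : 0 ≤ k := Nat.cast_nonneg _
  have hRX : ∀ x y, 𝒞.c2 x y = R → 𝒞.c1 x = ρ₀ ∧ 𝒞.c1 y = ρ₀ := by
    intro x y h
    obtain ⟨x', y', h1, h2, h3⟩ := (𝒞.mem_rels _ _ _).1 hR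
    have h4 := 𝒞.c1_of_c2 (by omega) (h.trans h3.symm)
    exact ⟨h4.1.trans h1, h4.2.trans h2⟩
  set g : V → V → V → ℝ := fun v x y => a v x * b y v * f v x y with hg
  have hab : ∀ v x y, |a v x * b y v| ≤ 1 := by
    intro v x y
    rw [abs_mul]
    exact mul_le_one₀ (ha v x) (abs_nonneg _) (hb y v)
  have hg2 : ∀ v x y, |g v x y| ≤ 2 := by
    intro v x y
    simp only [hg]
    rw [abs_mul]
    have h1 := hab v x y
    have h2 := hf2 v x y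
    have h3 := abs_nonneg (f v x y)
    have h4 := abs_nonneg (a v x * b y v)
    nlinarith
  -- step A
  have stepA : ∀ x y, E * (k / n * (∑ v ∈ X, g v x y) ^ 2) ≤
      E * (∑ v ∈ X, ∑ v' ∈ X, g v x y * 𝒞.ind ℝ T v v' * g v' x y) + 4 * n ^ 2 := by
    intro x y
    have h1 := quadT 𝒞 (by omega) hD hv₀ hT (fun v => g v x y) (fun v => hg2 v x y)
    rw [← hX, ← hn, ← hk, ← hE] at h1
    have h2 := mul_le_mul_of_nonneg_left (neg_abs_le (∑ v ∈ X, ∑ v' ∈ X,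
      g v x y * 𝒞.ind ℝ T v v' * g v' x y - k / n * (∑ v ∈ X, g v x y) ^ 2)) hE0
    linarith
  -- step D
  have stepD : E * |∑ v ∈ X, ∑ v' ∈ X, 𝒞.ind ℝ T v v' * ∑ x ∈ X, ∑ y ∈ X, f v x y * f v' x y| ≤
      4 * n ^ 4 := by
    have h1 : ∑ v ∈ X, ∑ v' ∈ X, 𝒞.ind ℝ T v v' * ∑ x ∈ X, ∑ y ∈ X, f v x y * f v' x y =
        ∑ x ∈ X, ∑ y ∈ X, ∑ v ∈ X, ∑ v' ∈ X, f v x y * 𝒞.ind ℝ T v v' * f v' x y := by
      rw [sum4_comm]
      refine Finset.sum_congr rfl fun v _ => Finset.sum_congr rfl fun v' _ => ?_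
      rw [Finset.mul_sum]
      refine Finset.sum_congr rfl fun x _ => ?_
      rw [Finset.mul_sum]
      refine Finset.sum_congr rfl fun y _ => ?_
      ring
    rw [h1]
    have h2 : ∀ x ∈ X, ∀ y ∈ X,
        E * |∑ v ∈ X, ∑ v' ∈ X, f v x y * 𝒞.ind ℝ T v v' * f v' x y| ≤ 4 * n ^ 2 := by
      intro x _ y _
      have h3 := quadT 𝒞 (by omega) hD hv₀ hT (fun v => f v x y) (fun v => hf2 v x y)
      rw [← hX, ← hn, ← hk, ← hE, hf0 x y] at h3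
      simpa using h3
    calc E * |∑ x ∈ X, ∑ y ∈ X, ∑ v ∈ X, ∑ v' ∈ X, f v x y * 𝒞.ind ℝ T v v' * f v' x y|
        ≤ E * ∑ x ∈ X, ∑ y ∈ X, |∑ v ∈ X, ∑ v' ∈ X, f v x y * 𝒞.ind ℝ T v v' * f v' x y| := by
          refine mul_le_mul_of_nonneg_left ?_ hE0
          refine (Finset.abs_sum_le_sum_abs _ _).trans ?_
          exact Finset.sum_le_sum fun x _ => Finset.abs_sum_le_sum_abs _ _
      _ = ∑ x ∈ X, ∑ y ∈ X,
            E * |∑ v ∈ X, ∑ v' ∈ X, f v x y * 𝒞.ind ℝ T v v' * f v' x y| := by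
          rw [Finset.mul_sum]
          exact Finset.sum_congr rfl fun x _ => Finset.mul_sum _ _ _
      _ ≤ (X.card : ℝ) * (X.card * (4 * n ^ 2)) := sum2_le X X _ h2
      _ = 4 * n ^ 4 := by rw [← hn]; ring
  -- the sum over `x`, `y` depends on the colour of `(v, v')` only
  have hsinv : ∀ v v' w w', 𝒞.c2 v v' = 𝒞.c2 w w' →
      ∑ x, ∑ y, f v x y * f v' x y = ∑ x, ∑ y, f w x y * f w' x y := by
    intro v v' w w' h
    obtain ⟨e, he⟩ := 𝒞.ext2 (by omega) h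
    rw [← Equiv.sum_comp e fun x => ∑ y, f w x y * f w' x y]
    refine Finset.sum_congr rfl fun x _ => ?_
    obtain ⟨e', he'⟩ := 𝒞.ext3 (by omega) (he x)
    rw [← Equiv.sum_comp e' fun y => f w (e x) y * f w' (e x) y]
    refine Finset.sum_congr rfl fun y _ => ?_
    have h1 := 𝒞.c4_sub (by omega) (he' y)
    rw [hfi _ _ _ _ _ _ h1.2.2.1, hfi _ _ _ _ _ _ h1.2.2.2]
  have hsX : ∀ v v', ∑ x ∈ X, ∑ y ∈ X, f v x y * f v' x y = ∑ x, ∑ y, f v x y * f v' x y := by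
    intro v v'
    have h1 : ∀ x, ∑ y ∈ X, f v x y * f v' x y = ∑ y, f v x y * f v' x y := by
      intro x
      refine Finset.sum_subset (Finset.subset_univ _) fun y _ hy => ?_
      by_cases h0 : f v x y = 0
      · rw [h0, zero_mul]
      · exact absurd ((𝒞.mem_cls _ _).2 (hRX _ _ (hfR v x y h0).2.1).2) hy
    simp only [h1]
    refine Finset.sum_subset (Finset.subset_univ _) fun x _ hx => ?_
    refine Finset.sum_eq_zero fun y _ => ?_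
    by_cases h0 : f v x y = 0
    · rw [h0, zero_mul]
    · exact absurd ((𝒞.mem_cls _ _).2 (hRX _ _ (hfR v x y h0).2.1).1) hx
  obtain ⟨tv, tv', htv, htv', htT⟩ := (𝒞.mem_rels _ _ _).1 hT
  set s₀ : ℝ := ∑ x ∈ X, ∑ y ∈ X, f tv x y * f tv' x y with hs₀
  have hs : ∀ v v', 𝒞.c2 v v' = T → ∑ x ∈ X, ∑ y ∈ X, f v x y * f v' x y = s₀ := by
    intro v v' h
    rw [hs₀, hsX, hsX]
    exact hsinv _ _ _ _ (h.trans htT.symm)
  have hInd0 : 0 ≤ ∑ v ∈ X, ∑ v' ∈ X, 𝒞.ind ℝ T v v' :=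
    Finset.sum_nonneg fun v _ => Finset.sum_nonneg fun v' _ => ind_nonneg 𝒞 T v v'
  have hInd1 : ∑ v ∈ X, ∑ v' ∈ X, 𝒞.ind ℝ T v v' ≤ n ^ 2 := by
    have := sum2_le X X (fun v v' => 𝒞.ind ℝ T v v') (c := 1) fun a _ b _ => ind_le_one 𝒞 T a b
    refine this.trans (le_of_eq ?_)
    rw [← hn]; ring
  have stepE : E * ((∑ v ∈ X, ∑ v' ∈ X, 𝒞.ind ℝ T v v') * |s₀|) ≤ 4 * n ^ 4 := by
    refine le_trans (le_of_eq ?_) stepD
    congr 1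
    have h1 : ∑ v ∈ X, ∑ v' ∈ X, 𝒞.ind ℝ T v v' * ∑ x ∈ X, ∑ y ∈ X, f v x y * f v' x y =
        (∑ v ∈ X, ∑ v' ∈ X, 𝒞.ind ℝ T v v') * s₀ := by
      rw [Finset.sum_mul]
      refine Finset.sum_congr rfl fun v _ => ?_
      rw [Finset.sum_mul]
      refine Finset.sum_congr rfl fun v' _ => ?_
      rw [𝒞.ind_apply]
      split_ifs with h
      · rw [hs v v' h]
      · simp
    rw [h1, abs_mul, abs_of_nonneg hInd0]
  -- step C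
  have stepC : ∀ v v', 𝒞.c2 v v' = T →
      E * |∑ x ∈ X, ∑ y ∈ X, g v x y * g v' x y| ≤ E * |s₀| + 4 * n ^ 2 := by
    intro v v' hvv
    have hrhs : 0 ≤ E * |s₀| + 4 * n ^ 2 := by positivity
    by_cases hex : ∃ x₁ y₁, f v x₁ y₁ * f v' x₁ y₁ ≠ 0
    · obtain ⟨x₁, y₁, h1⟩ := hex
      have h2 := hfR v x₁ y₁ (left_ne_zero_of_mul h1)
      have h3 := hfR v' x₁ y₁ (right_ne_zero_of_mul h1)
      set 𝒟 := (𝒞.fix v).fix v' with h𝒟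
      have hc1 : ∀ x, 𝒟.c1 x = 𝒞.c3 v v' x := fun x => fixfix_c1 𝒞 (by omega) v v' x
      have hc2 : ∀ x y, 𝒟.c2 x y = 𝒞.c4 v v' x y := fun x y => fixfix_c2 𝒞 (by omega) v v' x y
      set M : Matrix V V ℝ := fun x y => f v x y * f v' x y with hM
      have hMi : 𝒟.Inv2 M := by
        intro x y x' y' h
        rw [hc2, hc2] at h
        have h4 := 𝒞.c4_sub (by omega) h
        simp only [hM]
        rw [hfi _ _ _ _ _ _ h4.2.2.1, hfi _ _ _ _ _ _ h4.2.2.2]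
      have hMs : ∀ x y, M x y ≠ 0 → 𝒟.c1 x = 𝒟.c1 x₁ ∧ 𝒟.c1 y = 𝒟.c1 y₁ := by
        intro x y h
        have h4 := hfR v x y (left_ne_zero_of_mul h)
        have h5 := hfR v' x y (right_ne_zero_of_mul h)
        rw [hc1, hc1, hc1, hc1]
        exact ⟨hG1 v v' x v v' x₁ hvv hvv h4.1 h5.1 h2.1 h3.1,
          hG2 v v' y v v' y₁ hvv hvv h4.2.2 h5.2.2 h2.2.2 h3.2.2⟩
      have hsub : ∀ z, 𝒞.c1 z = ρ₀ → 𝒟.cls (𝒟.c1 z) ⊆ X := by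
        intro z hz x hx
        rw [𝒟.mem_cls, hc1, hc1] at hx
        have h4 := 𝒞.c3_sub (by omega) hx
        exact (𝒞.mem_cls _ _).2 ((𝒞.c1_of_c2 (by omega) h4.2.1).2.trans hz)
      have hx₁X : 𝒞.c1 x₁ = ρ₀ := (hRX _ _ h2.2.1).1
      have hy₁X : 𝒞.c1 y₁ = ρ₀ := (hRX _ _ h2.2.1).2
      have hM4 : ∀ x y, |M x y| ≤ 4 := by
        intro x y
        have h4 := hf2 v x y
        have h5 := hf2 v' x y
        simp only [hM]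
        rw [abs_mul]
        nlinarith [abs_nonneg (f v x y), abs_nonneg (f v' x y)]
      have hw1 : ∀ x, |a v x * a v' x| ≤ 1 := by
        intro x
        rw [abs_mul]
        exact mul_le_one₀ (ha v x) (abs_nonneg _) (ha v' x)
      have hu1 : ∀ x, |b x v * b x v'| ≤ 1 := by
        intro x
        rw [abs_mul]
        exact mul_le_one₀ (hb x v) (abs_nonneg _) (hb x v')
      have key := box 𝒟 hm (hD2 v v') hMi hMs (hsub x₁ hx₁X) (hsub y₁ hy₁X) hM4 hw1 hu1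
      rw [← hE, ← hn] at key
      have hs1 : ∑ x ∈ X, ∑ y ∈ X, M x y = s₀ := hs v v' hvv
      rw [hs1] at key
      have hs2 : ∑ x ∈ X, ∑ y ∈ X, g v x y * g v' x y =
          ∑ x ∈ X, ∑ y ∈ X, (a v x * a v' x) * M x y * (b y v * b y v') := by
        refine Finset.sum_congr rfl fun x _ => Finset.sum_congr rfl fun y _ => ?_
        simp only [hg, hM]
        ring
      rw [hs2]
      exact key
    · push Not at hex
      have : ∑ x ∈ X, ∑ y ∈ X, g v x y * g v' x y = 0 := by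
        refine Finset.sum_eq_zero fun x _ => Finset.sum_eq_zero fun y _ => ?_
        have h1 := hex x y
        simp only [hg]
        linear_combination (a v x * b y v * (a v' x * b y v')) * h1
      rw [this, abs_zero, mul_zero]
      exact hrhs
  -- the sum `S`
  set S : ℝ := ∑ x ∈ X, ∑ y ∈ X, ∑ v ∈ X, ∑ v' ∈ X, g v x y * 𝒞.ind ℝ T v v' * g v' x y with hS
  have hS1 : E * S ≤ 8 * n ^ 4 := by
    have h1 : S = ∑ v ∈ X, ∑ v' ∈ X, 𝒞.ind ℝ T v v' * ∑ x ∈ X, ∑ y ∈ X, g v x y * g v' x y := by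
      rw [hS, sum4_comm]
      refine Finset.sum_congr rfl fun v _ => Finset.sum_congr rfl fun v' _ => ?_
      rw [Finset.mul_sum]
      refine Finset.sum_congr rfl fun x _ => ?_
      rw [Finset.mul_sum]
      refine Finset.sum_congr rfl fun y _ => ?_
      ring
    rw [h1, Finset.mul_sum]
    have h2 : ∀ v ∈ X, E * ∑ v' ∈ X, 𝒞.ind ℝ T v v' * ∑ x ∈ X, ∑ y ∈ X, g v x y * g v' x y ≤
        (∑ v' ∈ X, 𝒞.ind ℝ T v v') * (E * |s₀| + 4 * n ^ 2) := by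
      intro v _
      rw [Finset.mul_sum, Finset.sum_mul]
      refine Finset.sum_le_sum fun v' _ => ?_
      rw [𝒞.ind_apply]
      split_ifs with h
      · rw [one_mul, one_mul]
        exact (mul_le_mul_of_nonneg_left (le_abs_self _) hE0).trans (stepC v v' h)
      · simp
    refine (Finset.sum_le_sum h2).trans ?_
    rw [← Finset.sum_mul]
    have h3 : (∑ v ∈ X, ∑ v' ∈ X, 𝒞.ind ℝ T v v') * (E * |s₀| + 4 * n ^ 2) =
        E * ((∑ v ∈ X, ∑ v' ∈ X, 𝒞.ind ℝ T v v') * |s₀|) +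
          (∑ v ∈ X, ∑ v' ∈ X, 𝒞.ind ℝ T v v') * (4 * n ^ 2) := by ring
    rw [h3]
    have h4 : (∑ v ∈ X, ∑ v' ∈ X, 𝒞.ind ℝ T v v') * (4 * n ^ 2) ≤ n ^ 2 * (4 * n ^ 2) :=
      mul_le_mul_of_nonneg_right hInd1 (by positivity)
    nlinarith [stepE]
  have hfin : E * (k / n * ∑ x ∈ X, ∑ y ∈ X, (∑ v ∈ X, g v x y) ^ 2) ≤ 12 * n ^ 4 := by
    have h1 : E * (k / n * ∑ x ∈ X, ∑ y ∈ X, (∑ v ∈ X, g v x y) ^ 2) =
        ∑ x ∈ X, ∑ y ∈ X, E * (k / n * (∑ v ∈ X, g v x y) ^ 2) := by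
      rw [Finset.mul_sum, Finset.mul_sum]
      refine Finset.sum_congr rfl fun x _ => ?_
      rw [Finset.mul_sum, Finset.mul_sum]
    rw [h1]
    have h2 : ∑ x ∈ X, ∑ y ∈ X, E * (k / n * (∑ v ∈ X, g v x y) ^ 2) ≤
        ∑ x ∈ X, ∑ y ∈ X, (E * (∑ v ∈ X, ∑ v' ∈ X, g v x y * 𝒞.ind ℝ T v v' * g v' x y) +
          4 * n ^ 2) :=
      Finset.sum_le_sum fun x _ => Finset.sum_le_sum fun y _ => stepA x y
    refine h2.trans ?_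
    simp only [Finset.sum_add_distrib, ← Finset.mul_sum, Finset.sum_const, nsmul_eq_mul]
    rw [← hS, ← hn]
    nlinarith [hS1]
  have e : E * (k * ∑ x ∈ X, ∑ y ∈ X, (∑ v ∈ X, g v x y) ^ 2) =
      n * (E * (k / n * ∑ x ∈ X, ∑ y ∈ X, (∑ v ∈ X, g v x y) ^ 2)) := by
    field_simp
  show E * (k * ∑ x ∈ X, ∑ y ∈ X, (∑ v ∈ X, g v x y) ^ 2) ≤ _
  rw [e]
  calc n * (E * (k / n * ∑ x ∈ X, ∑ y ∈ X, (∑ v ∈ X, g v x y) ^ 2)) ≤ n * (12 * n ^ 4) :=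
        mul_le_mul_of_nonneg_left hfin hn0.le
    _ = 12 * n ^ 5 := by ring

end Vale.Agent.P319.SC.H235
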