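import Vale.Agent.P319.SC.H235.Star

/-! P319, block SC: the tripling lemma. -/

namespace Vale.Agent.P319.SC.H235

open Finset Matrix Vale.Agent.P319.SC Vale.Agent.P319.SC.H323

set_option linter.all false

variable {V ι : Type} [Fintype V] [DecidableEq V] [DecidableEq ι] {m : ℕ}

/-- indicator of the cyclic triples with label `ε` -/
noncomputable def labF (𝒞 : Cfg V ι m) (R : ι) (lab : ι → ZMod 3) (ε : ZMod 3) (v x y : V) : ℝ :=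
  if 𝒞.c2 v x = R ∧ 𝒞.c2 x y = R ∧ 𝒞.c2 y v = R then
    (if lab (𝒞.c3 v x y) = ε then 1 else 0) else 0

/-- the centered indicator -/
noncomputable def labf (𝒞 : Cfg V ι m) (R : ι) (lab : ι → ZMod 3) (ε : ZMod 3) (v x y : V) : ℝ :=
  if 𝒞.c2 v x = R ∧ 𝒞.c2 x y = R ∧ 𝒞.c2 y v = R then
    (if lab (𝒞.c3 v x y) = ε then 2 else -1) else 0

theorem labf_eq (𝒞 : Cfg V ι m) (R : ι) (lab : ι → ZMod 3) (ε : ZMod 3) (v x y : V) :
    labf 𝒞 R lab ε v x y = 3 * labF 𝒞 R lab ε v x y -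
      ∑ ε' : ZMod 3, labF 𝒞 R lab ε' v x y := by
  unfold labf labF
  split_ifs with h1 h2
  · rw [Finset.sum_ite_eq]; simp; norm_num
  · rw [Finset.sum_ite_eq]; simp
  · simp

theorem labF_inv (𝒞 : Cfg V ι m) (hm : 3 ≤ m) (R : ι) (lab : ι → ZMod 3) (ε : ZMod 3)
    {v x y v' x' y' : V} (h : 𝒞.c3 v x y = 𝒞.c3 v' x' y') :
    labF 𝒞 R lab ε v x y = labF 𝒞 R lab ε v' x' y' := by
  have h1 := 𝒞.c3_sub hm h
  have h2 := 𝒞.c2_swap (by omega) h1.2.1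
  unfold labF
  rw [h1.1, h1.2.2, h2, h]

theorem labf_inv (𝒞 : Cfg V ι m) (hm : 3 ≤ m) (R : ι) (lab : ι → ZMod 3) (ε : ZMod 3)
    {v x y v' x' y' : V} (h : 𝒞.c3 v x y = 𝒞.c3 v' x' y') :
    labf 𝒞 R lab ε v x y = labf 𝒞 R lab ε v' x' y' := by
  have h1 := 𝒞.c3_sub hm h
  have h2 := 𝒞.c2_swap (by omega) h1.2.1
  unfold labf
  rw [h1.1, h1.2.2, h2, h]

theorem labf_ne (𝒞 : Cfg V ι m) (R : ι) (lab : ι → ZMod 3) (ε : ZMod 3)
    {v x y : V} (h : labf 𝒞 R lab ε v x y ≠ 0) :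
    𝒞.c2 v x = R ∧ 𝒞.c2 x y = R ∧ 𝒞.c2 y v = R := by
  by_contra h1
  exact h (if_neg h1)

theorem labF_ne (𝒞 : Cfg V ι m) (R : ι) (lab : ι → ZMod 3) (ε : ZMod 3)
    {v x y : V} (h : labF 𝒞 R lab ε v x y ≠ 0) :
    𝒞.c2 v x = R ∧ 𝒞.c2 x y = R ∧ 𝒞.c2 y v = R := by
  by_contra h1
  exact h (if_neg h1)

theorem labf_abs (𝒞 : Cfg V ι m) (R : ι) (lab : ι → ZMod 3) (ε : ZMod 3) (v x y : V) :
    |labf 𝒞 R lab ε v x y| ≤ 2 := by
  unfold labf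
  split_ifs <;> norm_num

theorem labF_rot {𝒞 : Cfg V ι m} {R : ι} {lab : ι → ZMod 3} (hl : IsLab 𝒞 R lab) (ε : ZMod 3)
    (v x y : V) : labF 𝒞 R lab (ε + 1) x y v = labF 𝒞 R lab ε v x y := by
  unfold labF
  by_cases h : 𝒞.c2 v x = R ∧ 𝒞.c2 x y = R ∧ 𝒞.c2 y v = R
  · rw [if_pos h, if_pos ⟨h.2.1, h.2.2, h.1⟩, hl v x y h.1 h.2.1 h.2.2]
    by_cases h1 : lab (𝒞.c3 v x y) = ε
    · rw [if_pos h1, if_pos (by rw [h1])]
    · rw [if_neg h1, if_neg (fun h2 => h1 (add_right_cancel h2))]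
  · rw [if_neg h, if_neg (fun h1 => h ⟨h1.2.2, h1.1, h1.2.1⟩)]

/-- double counting -/
theorem dc (𝒟 : Cfg V ι m) (hm : 3 ≤ m) (F : V → V → V → ℝ)
    (hF : ∀ v x y v' x' y', 𝒟.c3 v x y = 𝒟.c3 v' x' y' → F v x y = F v' x' y') {x₂ y₂ : V}
    (hxy : ∀ v x y, F v x y ≠ 0 → 𝒟.c2 x y = 𝒟.c2 x₂ y₂) :
    ∑ x, ∑ y, ∑ v, F v x y = ((𝒟.cls (𝒟.c1 x₂)).card * 𝒟.val x₂ (𝒟.c2 x₂ y₂) : ℕ) *
      ∑ v, F v x₂ y₂ := by
  rw [← 𝒟.card_pairs (by omega), ← nsmul_eq_mul, ← Finset.sum_const, ← Finset.sum_product',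
    Finset.univ_product_univ]
  rw [Finset.sum_filter]
  refine Finset.sum_congr rfl fun q _ => ?_
  split_ifs with h
  · obtain ⟨e, he⟩ := 𝒟.ext2 hm h
    rw [← Equiv.sum_comp e fun v => F v x₂ y₂]
    refine Finset.sum_congr rfl fun v _ => ?_
    exact hF _ _ _ _ _ _ (𝒟.c3_rot hm (𝒟.c3_rot hm (he v)))
  · refine Finset.sum_eq_zero fun v _ => ?_
    by_contra h1
    exact h (hxy v q.1 q.2 h1)

theorem dc' (𝒟 : Cfg V ι m) (hm : 3 ≤ m) (F : V → V → V → ℝ)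
    (hF : ∀ v x y v' x' y', 𝒟.c3 v x y = 𝒟.c3 v' x' y' → F v x y = F v' x' y') {v₁ : V}
    (hv : ∀ v x y, F v x y ≠ 0 → 𝒟.c1 v = 𝒟.c1 v₁) :
    ∑ x, ∑ y, ∑ v, F v x y = (𝒟.cls (𝒟.c1 v₁)).card * ∑ x, ∑ y, F v₁ x y := by
  have h0 : ∑ x, ∑ y, ∑ v, F v x y = ∑ v, ∑ x, ∑ y, F v x y := by
    rw [Finset.sum_comm (f := fun v x => ∑ y, F v x y)]
    exact Finset.sum_congr rfl fun x _ => Finset.sum_comm
  rw [h0, ← nsmul_eq_mul, ← Finset.sum_const, Cfg.cls, Finset.sum_filter]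
  refine Finset.sum_congr rfl fun v _ => ?_
  split_ifs with h
  · obtain ⟨e, he⟩ := 𝒟.ext1 (by omega) h
    rw [← Equiv.sum_comp e fun x => ∑ y, F v₁ x y]
    refine Finset.sum_congr rfl fun x _ => ?_
    obtain ⟨e', he'⟩ := 𝒟.ext2 hm (he x)
    rw [← Equiv.sum_comp e' fun y => F v₁ (e x) y]
    exact Finset.sum_congr rfl fun y _ => hF _ _ _ _ _ _ (he' y)
  · refine Finset.sum_eq_zero fun x _ => Finset.sum_eq_zero fun y _ => ?_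
    by_contra h1
    exact h (hv v x y h1)

/-- all labels have the same number of points over every pair with colour `R` -/
theorem lab_sum (𝒞 : Cfg V ι m) (hm : 3 ≤ m) {R : ι} {lab : ι → ZMod 3} (hl : IsLab 𝒞 R lab)
    (ε : ZMod 3) (x y : V) : ∑ v, labf 𝒞 R lab ε v x y = 0 := by
  by_cases hxy : 𝒞.c2 x y = R
  · have h1 : ∀ ε, ∑ a, ∑ b, ∑ c, labF 𝒞 R lab ε c a b =
        ((𝒞.cls (𝒞.c1 x)).card * 𝒞.val x (𝒞.c2 x y) : ℕ) * ∑ v, labF 𝒞 R lab ε v x y := by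
      intro ε
      refine dc 𝒞 hm (fun v x y => labF 𝒞 R lab ε v x y)
        (fun v x y v' x' y' h => labF_inv 𝒞 hm R lab ε h) ?_
      intro v a b h
      rw [(labF_ne 𝒞 R lab ε h).2.1, hxy]
    have h2 : ∀ ε, ∑ a, ∑ b, ∑ c, labF 𝒞 R lab ε c a b =
        ∑ a, ∑ b, ∑ c, labF 𝒞 R lab (ε + 1) c a b := by
      intro ε
      have e1 : ∑ a, ∑ b, ∑ c, labF 𝒞 R lab ε c a b =
          ∑ a, ∑ b, ∑ c, labF 𝒞 R lab (ε + 1) a b c :=
        Finset.sum_congr rfl fun a _ => Finset.sum_congr rfl fun b _ =>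
          Finset.sum_congr rfl fun c _ => (labF_rot hl ε c a b).symm
      rw [e1]
      have e2 : ∑ a, ∑ b, ∑ c, labF 𝒞 R lab (ε + 1) c a b =
          ∑ a, ∑ c, ∑ b, labF 𝒞 R lab (ε + 1) c a b :=
        Finset.sum_congr rfl fun a _ => Finset.sum_comm
      rw [e2, Finset.sum_comm]
    have hpos : (0 : ℝ) < ((𝒞.cls (𝒞.c1 x)).card * 𝒞.val x (𝒞.c2 x y) : ℕ) := by
      exact_mod_cast Nat.mul_pos (𝒞.cls_pos x) (𝒞.val_pos x y)
    have h3 : ∀ ε, ∑ v, labF 𝒞 R lab ε v x y = ∑ v, labF 𝒞 R lab (ε + 1) v x y := by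
      intro ε
      have h4 := h2 ε
      rw [h1 ε, h1 (ε + 1)] at h4
      exact mul_left_cancel₀ hpos.ne' h4
    have h5 : ∀ ε, ∑ v, labF 𝒞 R lab ε v x y = ∑ v, labF 𝒞 R lab 0 v x y := by
      have a0 := h3 0
      have a1 := h3 1
      rw [show (0 : ZMod 3) + 1 = 1 from by decide] at a0
      rw [show (1 : ZMod 3) + 1 = 2 from by decide] at a1
      intro ε
      fin_cases ε
      · rfl
      · exact a0.symm
      · exact a1.symm.trans a0.symm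
    simp only [labf_eq, Finset.sum_sub_distrib, ← Finset.mul_sum]
    rw [Finset.sum_comm (f := fun v ε' => labF 𝒞 R lab ε' v x y)]
    simp only [h5]
    rw [Finset.sum_const, Finset.card_univ, ZMod.card, nsmul_eq_mul]
    push_cast
    ring
  · refine Finset.sum_eq_zero fun v _ => ?_
    by_contra h
    exact hxy (labf_ne 𝒞 R lab ε h).2.1

end Vale.Agent.P319.SC.H235
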